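import Vale.Agent.P155.BDK.Pv
import Vale.Agent.P155.T211B.Grow
import Vale.Agent.P155.T211B.Fine
import Vale.Agent.P155.H354.Trace

/-!
# P155, block BD (B6b): the arm bound `ARMB` from the pair bound
-/

namespace Vale.Agent.P155.A801

open Complex Metric Set Skel
open Vale.Agent.P155 Vale.Agent.P155.BD Vale.Agent.P155.T733 Vale.Agent.P155.BDK
open scoped ComplexConjugate

/-- height of the centre of a dyadic box -/
theorem one_sub_norm_cen (K : ℕ × ℕ) : 1 - ‖cen K‖ = 3 / 4 * (1 / 2) ^ K.1 := by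
  unfold cen
  rw [norm_mul, norm_ee, mul_one, norm_real_sub, abs_of_nonneg]
  · ring
  · have : (1 / 2 : ℝ) ^ K.1 ≤ 1 := pow_le_one₀ (by norm_num) (by norm_num)
    linarith

theorem cen_lt (K : ℕ × ℕ) : ‖cen K‖ < 1 := by
  have h := one_sub_norm_cen K
  have : (0 : ℝ) < (1 / 2) ^ K.1 := by positivity
  linarith

theorem cen_dbox (K : ℕ × ℕ) : cen K ∈ dbox K := by
  have hp : (0 : ℝ) < (1 / 2) ^ K.1 := by positivity
  refine ⟨_, _, ?_, ?_, ?_, ?_, rfl⟩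
  · nlinarith
  · nlinarith
  · rw [pow_succ]; linarith
  · linarith

/-- upper bound of `HH` by Euclidean quantities -/
theorem HH_le {u p : ℂ} (hu : ‖u‖ < 1) (hp : ‖p‖ < 1) :
    HH u p ≤ ‖u - p‖ ^ 2 / ((1 - ‖u‖) * (1 - ‖p‖)) + 1 := by
  have h1 := one_sub_pos hu
  have h2 := one_sub_pos hp
  have h3 : 0 < 1 - ‖u‖ := by linarith
  have h4 : 0 < 1 - ‖p‖ := by linarith
  unfold HH
  rw [id1, add_div, div_self (by positivity)]
  have e1 : 1 - ‖u‖ ≤ 1 - ‖u‖ ^ 2 := by nlinarith [norm_nonneg u]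
  have e2 : 1 - ‖p‖ ≤ 1 - ‖p‖ ^ 2 := by nlinarith [norm_nonneg p]
  have e3 : (1 - ‖u‖) * (1 - ‖p‖) ≤ (1 - ‖u‖ ^ 2) * (1 - ‖p‖ ^ 2) :=
    mul_le_mul e1 e2 h4.le h1.le
  gcongr

/-- lower bound of `HH` by Euclidean quantities -/
theorem le_HH' {u p : ℂ} (hu : ‖u‖ < 1) (hp : ‖p‖ < 1) :
    ‖u - p‖ ^ 2 / (4 * ((1 - ‖u‖) * (1 - ‖p‖))) + 1 ≤ HH u p := by
  have h1 := one_sub_pos hu
  have h2 := one_sub_pos hp
  have h3 : 0 < 1 - ‖u‖ := by linarith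
  have h4 : 0 < 1 - ‖p‖ := by linarith
  unfold HH
  rw [id1, add_div, div_self (by positivity)]
  have e1 : 1 - ‖u‖ ^ 2 ≤ 2 * (1 - ‖u‖) := by nlinarith [norm_nonneg u]
  have e2 : 1 - ‖p‖ ^ 2 ≤ 2 * (1 - ‖p‖) := by nlinarith [norm_nonneg p]
  have e3 : (1 - ‖u‖ ^ 2) * (1 - ‖p‖ ^ 2) ≤ 4 * ((1 - ‖u‖) * (1 - ‖p‖)) := by
    calc (1 - ‖u‖ ^ 2) * (1 - ‖p‖ ^ 2) ≤ (2 * (1 - ‖u‖)) * (2 * (1 - ‖p‖)) :=
          mul_le_mul e1 e2 h2.le (by positivity)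
      _ = _ := by ring
  gcongr

/-- comparison of two values of `HH` -/
theorem HH_cmp {u p w w' : ℂ} (hu : ‖u‖ < 1) (hp : ‖p‖ < 1) (hw : ‖w‖ < 1) (hw' : ‖w'‖ < 1)
    (h : ‖u - p‖ ^ 2 * ((1 - ‖w‖) * (1 - ‖w'‖)) ≤
      4000 * (‖w - w'‖ ^ 2 * ((1 - ‖u‖) * (1 - ‖p‖)))) : HH u p ≤ 16000 * HH w w' := by
  have h1 : 0 < 1 - ‖u‖ := by linarith
  have h2 : 0 < 1 - ‖p‖ := by linarith
  have h3 : 0 < 1 - ‖w‖ := by linarith
  have h4 : 0 < 1 - ‖w'‖ := by linarith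
  have k1 := HH_le hu hp
  have k2 := le_HH' hw hw'
  have k3 : ‖u - p‖ ^ 2 / ((1 - ‖u‖) * (1 - ‖p‖)) ≤
      16000 * (‖w - w'‖ ^ 2 / (4 * ((1 - ‖w‖) * (1 - ‖w'‖)))) := by
    rw [div_le_iff₀ (by positivity)]
    have e : 16000 * (‖w - w'‖ ^ 2 / (4 * ((1 - ‖w‖) * (1 - ‖w'‖)))) * ((1 - ‖u‖) * (1 - ‖p‖)) =
        4000 * (‖w - w'‖ ^ 2 * ((1 - ‖u‖) * (1 - ‖p‖))) / ((1 - ‖w‖) * (1 - ‖w'‖)) := by
      field_simp
      ring
    rw [e, le_div_iff₀ (by positivity)]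
    exact h
  linarith

/-- geometry of a pair of points of the two annuli of `arm` -/
structure Geo (K : ℕ × ℕ) (k : ℕ) (w w' : ℂ) : Prop where
  w1 : ‖w‖ < 1
  w1' : ‖w'‖ < 1
  h : 1 - ‖w‖ ≤ 32 * (1 / 2) ^ K.1
  h' : 1 - ‖w'‖ ≤ 32 * (1 / 2) ^ (K.1 - k)
  sep : 5 * (1 / 2) ^ (K.1 - k) ≤ ‖w - w'‖
  a1 : ‖w - cen K‖ ≤ 40 * (1 / 2) ^ K.1
  a2 : ‖w - cen (anc K k)‖ ≤ 47 * (1 / 2) ^ (K.1 - k)
  a3 : ‖w' - cen K‖ ≤ 47 * (1 / 2) ^ (K.1 - k)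
  a4 : ‖w' - cen (anc K k)‖ ≤ 40 * (1 / 2) ^ (K.1 - k)
  le : (1 / 2 : ℝ) ^ K.1 ≤ (1 / 2) ^ (K.1 - k)

theorem geo {K : ℕ × ℕ} {k : ℕ} (hk3 : 3 ≤ k) (hk : k ≤ K.1) {W W' : ℕ × ℕ} {w w' : ℂ}
    (hw : w ∈ dbox W) (hw' : w' ∈ dbox W') (hwn : ‖w - xi K‖ ≤ 2 * (16 * (1 / 2) ^ K.1))
    (hwn1 : 16 * (1 / 2) ^ (K.1 - k) ≤ ‖w' - xi (anc K k)‖)
    (hwn2 : ‖w' - xi (anc K k)‖ ≤ 2 * (16 * (1 / 2) ^ (K.1 - k))) : Geo K k w w' := by
  have hp : (0 : ℝ) < (1 / 2) ^ K.1 := by positivity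
  have hp' : (0 : ℝ) < (1 / 2) ^ (K.1 - k) := by positivity
  have hle : (1 / 2 : ℝ) ^ K.1 ≤ (1 / 2) ^ (K.1 - k) :=
    pow_le_pow_of_le_one (by norm_num) (by norm_num) (Nat.sub_le _ _)
  have hxi := xi_anc hk
  have f0 : anc K 0 = K := by
    unfold anc; simp
  have n1 : ‖cen K - xi K‖ ≤ 8 * (1 / 2) ^ K.1 := by
    have := near_foot (I := K) (i := 0) (Nat.zero_le _) (cen_dbox K)
    rw [f0] at this
    simpa using this
  have n2 : ‖cen (anc K k) - xi (anc K k)‖ ≤ 8 * (1 / 2) ^ (K.1 - k) := by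
    have f0' : anc (anc K k) 0 = anc K k := by
      unfold anc; simp
    have := near_foot (I := anc K k) (i := 0) (Nat.zero_le _) (cen_dbox (anc K k))
    rw [f0'] at this
    simpa [anc] using this
  have one : ∀ (u ξ : ℂ), ‖ξ‖ = 1 → 1 - ‖u‖ ≤ ‖u - ξ‖ := by
    intro u ξ hξ
    have := norm_sub_norm_le ξ u
    rw [hξ, norm_sub_rev] at this
    exact this
  have tri : ∀ (a b c : ℂ), ‖a - b‖ ≤ ‖a - c‖ + ‖b - c‖ := by
    intro a b c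
    have e : a - b = (a - c) - (b - c) := by ring
    rw [e]
    exact _root_.norm_sub_le _ _
  refine ⟨dbox_sub hw, dbox_sub hw', ?_, ?_, arm_sep hk3 hk hwn hwn1, ?_, ?_, ?_, ?_, hle⟩
  · have := one w (xi K) (norm_xi K)
    linarith
  · have := one w' (xi (anc K k)) (norm_xi _)
    linarith
  · have := tri w (cen K) (xi K)
    linarith
  · have t1 := tri w (cen (anc K k)) (xi (anc K k))
    have t2 := tri w (xi (anc K k)) (xi K)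
    have t3 : ‖xi (anc K k) - xi K‖ = ‖xi K - xi (anc K k)‖ := norm_sub_rev _ _
    linarith
  · have t1 := tri w' (cen K) (xi K)
    have t2 := tri w' (xi K) (xi (anc K k))
    linarith
  · have := tri w' (cen (anc K k)) (xi (anc K k))
    linarith

theorem Geo.cmp1 {K : ℕ × ℕ} {k : ℕ} {w w' : ℂ} (g : Geo K k w w') :
    HH w (cen K) ≤ 16000 * HH w w' := by
  apply HH_cmp g.w1 (cen_lt K) g.w1 g.w1'
  have hs : (0 : ℝ) < (1 / 2) ^ K.1 := by positivity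
  have hS : (0 : ℝ) < (1 / 2) ^ (K.1 - k) := by positivity
  have hw : 0 < 1 - ‖w‖ := by linarith [g.w1]
  rw [one_sub_norm_cen]
  have a := g.a1
  have b := g.h'
  have c := g.sep
  have d := g.le
  have e1 : ‖w - cen K‖ ^ 2 ≤ (40 * (1 / 2) ^ K.1) ^ 2 := pow_le_pow_left₀ (norm_nonneg _) a 2
  have e2 : (5 * (1 / 2) ^ (K.1 - k)) ^ 2 ≤ ‖w - w'‖ ^ 2 := pow_le_pow_left₀ (by positivity) c 2
  set s : ℝ := (1 / 2) ^ K.1
  set S : ℝ := (1 / 2) ^ (K.1 - k)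
  calc ‖w - cen K‖ ^ 2 * ((1 - ‖w‖) * (1 - ‖w'‖)) ≤ (40 * s) ^ 2 * ((1 - ‖w‖) * (32 * S)) := by
        have : 0 < 1 - ‖w'‖ := by linarith [g.w1']
        gcongr
    _ = (51200 * s * S * (1 - ‖w‖)) * s := by ring
    _ ≤ (51200 * s * S * (1 - ‖w‖)) * S := by gcongr
    _ ≤ 4000 * ((5 * S) ^ 2 * ((1 - ‖w‖) * (3 / 4 * s))) := by
        have : 0 ≤ s * S * (1 - ‖w‖) * S := by positivity
        nlinarith
    _ ≤ _ := by gcongr

theorem Geo.cmp2 {K : ℕ × ℕ} {k : ℕ} {w w' : ℂ} (g : Geo K k w w') :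
    HH w (cen (anc K k)) ≤ 16000 * HH w w' := by
  apply HH_cmp g.w1 (cen_lt _) g.w1 g.w1'
  have hS : (0 : ℝ) < (1 / 2) ^ (K.1 - k) := by positivity
  have hw : 0 < 1 - ‖w‖ := by linarith [g.w1]
  rw [one_sub_norm_cen]
  have a := g.a2
  have b := g.h'
  have c := g.sep
  have e1 : ‖w - cen (anc K k)‖ ^ 2 ≤ (47 * (1 / 2) ^ (K.1 - k)) ^ 2 :=
    pow_le_pow_left₀ (norm_nonneg _) a 2
  have e2 : (5 * (1 / 2) ^ (K.1 - k)) ^ 2 ≤ ‖w - w'‖ ^ 2 := pow_le_pow_left₀ (by positivity) c 2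
  have e3 : (1 / 2 : ℝ) ^ (anc K k).1 = (1 / 2) ^ (K.1 - k) := rfl
  rw [e3]
  set S : ℝ := (1 / 2) ^ (K.1 - k)
  calc ‖w - cen (anc K k)‖ ^ 2 * ((1 - ‖w‖) * (1 - ‖w'‖)) ≤
        (47 * S) ^ 2 * ((1 - ‖w‖) * (32 * S)) := by
        have : 0 < 1 - ‖w'‖ := by linarith [g.w1']
        gcongr
    _ ≤ 4000 * ((5 * S) ^ 2 * ((1 - ‖w‖) * (3 / 4 * S))) := by
        have : 0 ≤ S ^ 3 * (1 - ‖w‖) := by positivity
        nlinarith
    _ ≤ _ := by gcongr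

theorem Geo.cmp3 {K : ℕ × ℕ} {k : ℕ} {w w' : ℂ} (g : Geo K k w w') :
    HH w' (cen K) ≤ 16000 * HH w w' := by
  apply HH_cmp g.w1' (cen_lt _) g.w1 g.w1'
  have hs : (0 : ℝ) < (1 / 2) ^ K.1 := by positivity
  have hS : (0 : ℝ) < (1 / 2) ^ (K.1 - k) := by positivity
  have hw' : 0 < 1 - ‖w'‖ := by linarith [g.w1']
  rw [one_sub_norm_cen]
  have a := g.a3
  have b := g.h
  have c := g.sep
  have e1 : ‖w' - cen K‖ ^ 2 ≤ (47 * (1 / 2) ^ (K.1 - k)) ^ 2 :=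
    pow_le_pow_left₀ (norm_nonneg _) a 2
  have e2 : (5 * (1 / 2) ^ (K.1 - k)) ^ 2 ≤ ‖w - w'‖ ^ 2 := pow_le_pow_left₀ (by positivity) c 2
  set s : ℝ := (1 / 2) ^ K.1
  set S : ℝ := (1 / 2) ^ (K.1 - k)
  calc ‖w' - cen K‖ ^ 2 * ((1 - ‖w‖) * (1 - ‖w'‖)) ≤
        (47 * S) ^ 2 * ((32 * s) * (1 - ‖w'‖)) := by
        have : 0 < 1 - ‖w‖ := by linarith [g.w1]
        gcongr
    _ ≤ 4000 * ((5 * S) ^ 2 * ((1 - ‖w'‖) * (3 / 4 * s))) := by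
        have : 0 ≤ S ^ 2 * s * (1 - ‖w'‖) := by positivity
        nlinarith
    _ ≤ _ := by gcongr

theorem Geo.cmp4 {K : ℕ × ℕ} {k : ℕ} {w w' : ℂ} (g : Geo K k w w') :
    HH w' (cen (anc K k)) ≤ 16000 * HH w w' := by
  apply HH_cmp g.w1' (cen_lt _) g.w1 g.w1'
  have hs : (0 : ℝ) < (1 / 2) ^ K.1 := by positivity
  have hS : (0 : ℝ) < (1 / 2) ^ (K.1 - k) := by positivity
  have hw' : 0 < 1 - ‖w'‖ := by linarith [g.w1']
  rw [one_sub_norm_cen]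
  have a := g.a4
  have b := g.h
  have c := g.sep
  have d := g.le
  have e1 : ‖w' - cen (anc K k)‖ ^ 2 ≤ (40 * (1 / 2) ^ (K.1 - k)) ^ 2 :=
    pow_le_pow_left₀ (norm_nonneg _) a 2
  have e2 : (5 * (1 / 2) ^ (K.1 - k)) ^ 2 ≤ ‖w - w'‖ ^ 2 := pow_le_pow_left₀ (by positivity) c 2
  have e3 : (1 / 2 : ℝ) ^ (anc K k).1 = (1 / 2) ^ (K.1 - k) := rfl
  rw [e3]
  set s : ℝ := (1 / 2) ^ K.1
  set S : ℝ := (1 / 2) ^ (K.1 - k)
  calc ‖w' - cen (anc K k)‖ ^ 2 * ((1 - ‖w‖) * (1 - ‖w'‖)) ≤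
        (40 * S) ^ 2 * ((32 * s) * (1 - ‖w'‖)) := by
        have : 0 < 1 - ‖w‖ := by linarith [g.w1]
        gcongr
    _ ≤ (40 * S) ^ 2 * ((32 * S) * (1 - ‖w'‖)) := by gcongr
    _ ≤ 4000 * ((5 * S) ^ 2 * ((1 - ‖w'‖) * (3 / 4 * S))) := by
        have : 0 ≤ S ^ 3 * (1 - ‖w'‖) := by positivity
        nlinarith
    _ ≤ _ := by gcongr

/-- `HH` is large when the two annuli are far from each other -/
theorem Geo.far {K : ℕ × ℕ} {k : ℕ} (hk : k ≤ K.1) {w w' : ℂ} (g : Geo K k w w') :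
    2 ^ k ≤ 164 * HH w w' := by
  have h1 := le_HH' g.w1 g.w1'
  have hs : (0 : ℝ) < (1 / 2) ^ K.1 := by positivity
  have hw : 0 < 1 - ‖w‖ := by linarith [g.w1]
  have hw' : 0 < 1 - ‖w'‖ := by linarith [g.w1']
  have e2 : (5 * (1 / 2) ^ (K.1 - k)) ^ 2 ≤ ‖w - w'‖ ^ 2 :=
    pow_le_pow_left₀ (by positivity) g.sep 2
  have e3 : (2 : ℝ) ^ k / 164 ≤ ‖w - w'‖ ^ 2 / (4 * ((1 - ‖w‖) * (1 - ‖w'‖))) := by
    rw [div_le_div_iff₀ (by norm_num) (by positivity)]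
    have hS := half_pow_sub hk
    have b := g.h
    have b' := g.h'
    have h2k : (0 : ℝ) < 2 ^ k := by positivity
    rw [hS] at e2 b'
    set s : ℝ := (1 / 2) ^ K.1
    calc 2 ^ k * (4 * ((1 - ‖w‖) * (1 - ‖w'‖))) ≤
          2 ^ k * (4 * ((32 * s) * (32 * (2 ^ k * s)))) := by gcongr
      _ ≤ (5 * (2 ^ k * s)) ^ 2 * 164 := by
          have : 0 ≤ (2 ^ k) ^ 2 * s ^ 2 := by positivity
          nlinarith
      _ ≤ _ := by gcongr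
  linarith

/-- **Good pairs.** -/
theorem good {T : Temp} {f φ : ℂ → ℂ} (h : RM T f φ) {R : ℕ} {a : ℝ} (ha0 : 0 < a)
    (ha : a ≤ 1 / 4) (hR1 : 1 ≤ R) (hR : 64000 ≤ (R : ℝ) ^ (1 / 80 : ℝ)) {K : ℕ × ℕ} {k : ℕ}
    (hk : k ≤ K.1) {w w' : ℂ} (g : Geo K k w w')
    (hyp : (R : ℝ) ^ (1 - 1 / 2 : ℝ) ≤ bsz T f K ∨
      (R : ℝ) ^ (1 - 1 / 2 : ℝ) ≤ bsz T f (anc K k) ∨ 1 * Real.log R ≤ k) :
    Good a (1 / 80) R T f w w' := by
  have hRr : (1 : ℝ) ≤ R := by exact_mod_cast hR1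
  have hRr0 : (0 : ℝ) < R := by linarith
  have hHH := one_le_HH g.w1 g.w1'
  have key : ∀ x : ℝ, (R : ℝ) ^ (1 / 80 : ℝ) ≤ x → x ≤ HH w w' →
      Good a (1 / 80) R T f w w' := by
    intro x hx hx'
    right
    rw [← Real.log_rpow hRr0]
    exact Real.log_le_log (by positivity) (hx.trans hx')
  -- comparison with a box of large size
  have big : ∀ p : ℂ, ‖p‖ < 1 → (R : ℝ) ^ (1 - 1 / 2 : ℝ) ≤ dU T (f p) → ∀ u : ℂ, ‖u‖ < 1 →
      HH u p ≤ 16000 * HH w w' → (R : ℝ) ^ a ≤ dU T (f u) ∨ (R : ℝ) ^ (1 / 80 : ℝ) ≤ HH w w' := by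
    intro p hp hbig u hu hcmp
    by_cases hc : (R : ℝ) ^ a ≤ dU T (f u)
    · exact Or.inl hc
    right
    push Not at hc
    have h1 := (T211B.kog h (mem_ball_zero_iff.2 hu) (mem_ball_zero_iff.2 hp)).2
    have hone := one_le_HH hu hp
    have h2 : (R : ℝ) ^ (1 - 1 / 2 : ℝ) ≤ (4 * HH u p) ^ 10 * (R : ℝ) ^ a := by
      refine hbig.trans (h1.trans ?_)
      gcongr
    have h3 : (R : ℝ) ^ (1 / 4 : ℝ) ≤ (4 * HH u p) ^ 10 := by
      have e1 : (R : ℝ) ^ (1 / 4 : ℝ) * (R : ℝ) ^ a ≤ (R : ℝ) ^ (1 - 1 / 2 : ℝ) := by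
        rw [← Real.rpow_add hRr0]
        exact Real.rpow_le_rpow_of_exponent_le hRr (by linarith)
      have e2 : 0 < (R : ℝ) ^ a := by positivity
      exact le_of_mul_le_mul_right (e1.trans h2) e2
    have h4 : (R : ℝ) ^ (1 / 40 : ℝ) ≤ 4 * HH u p := by
      have e1 : ((R : ℝ) ^ (1 / 40 : ℝ)) ^ 10 = (R : ℝ) ^ (1 / 4 : ℝ) := by
        rw [← Real.rpow_natCast, ← Real.rpow_mul hRr0.le]
        norm_num
      rw [← e1] at h3
      exact le_of_pow_le_pow_left₀ (by norm_num) (by positivity) h3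
    have h5 : (R : ℝ) ^ (1 / 40 : ℝ) = (R : ℝ) ^ (1 / 80 : ℝ) * (R : ℝ) ^ (1 / 80 : ℝ) := by
      rw [← Real.rpow_add hRr0]
      norm_num
    have h6 : (R : ℝ) ^ (1 / 80 : ℝ) * 64000 ≤ 64000 * HH w w' := by
      calc (R : ℝ) ^ (1 / 80 : ℝ) * 64000 ≤ (R : ℝ) ^ (1 / 80 : ℝ) * (R : ℝ) ^ (1 / 80 : ℝ) := by
            gcongr
        _ ≤ 64000 * HH w w' := by
            rw [← h5]
            linarith
    linarith
  have fin : ∀ p : ℂ, ‖p‖ < 1 → (R : ℝ) ^ (1 - 1 / 2 : ℝ) ≤ dU T (f p) →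
      HH w p ≤ 16000 * HH w w' → HH w' p ≤ 16000 * HH w w' → Good a (1 / 80) R T f w w' := by
    intro p hp hbig h1 h2
    rcases big p hp hbig w g.w1 h1 with h3 | h3
    · rcases big p hp hbig w' g.w1' h2 with h4 | h4
      · exact Or.inl ⟨h3, h4⟩
      · exact key _ le_rfl h4
    · exact key _ le_rfl h3
  rcases hyp with hy | hy | hy
  · exact fin (cen K) (cen_lt K) hy g.cmp1 g.cmp3
  · exact fin (cen (anc K k)) (cen_lt _) hy g.cmp2 g.cmp4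
  · -- the annuli are far from each other
    have h1 := g.far hk
    have h2 : (R : ℝ) ^ (1 / 40 : ℝ) ≤ 2 ^ k := by
      have e1 : (R : ℝ) ^ (1 / 40 : ℝ) ≤ (R : ℝ) ^ (Real.log 2) := by
        apply Real.rpow_le_rpow_of_exponent_le hRr
        have := Real.log_two_gt_d9
        linarith
      refine e1.trans ?_
      have e2 : (2 : ℝ) ^ k = Real.exp (k * Real.log 2) := by
        rw [mul_comm, Real.exp_mul, Real.exp_log (by norm_num), Real.rpow_natCast]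
      rw [e2, Real.rpow_def_of_pos hRr0]
      apply Real.exp_le_exp.2
      have := Real.log_pos (show (1 : ℝ) < 2 by norm_num)
      nlinarith
    have h5 : (R : ℝ) ^ (1 / 40 : ℝ) = (R : ℝ) ^ (1 / 80 : ℝ) * (R : ℝ) ^ (1 / 80 : ℝ) := by
      rw [← Real.rpow_add hRr0]
      norm_num
    refine key _ le_rfl ?_
    have h6 : (R : ℝ) ^ (1 / 80 : ℝ) * 64000 ≤ 164 * HH w w' := by
      calc (R : ℝ) ^ (1 / 80 : ℝ) * 64000 ≤ (R : ℝ) ^ (1 / 80 : ℝ) * (R : ℝ) ^ (1 / 80 : ℝ) := by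
            gcongr
        _ ≤ 164 * HH w w' := by
            rw [← h5]
            linarith
    have h7 : 0 < (R : ℝ) ^ (1 / 80 : ℝ) := by positivity
    nlinarith

/-- **The arm bound `ARMB` from the pair bound.** -/
theorem armb_of {D : Temp → Pt → Pt → ℝ}
    (hD : ∀ T : Temp, ∀ x ∈ T.faceSet, ∀ y ∈ T.faceSet, D T x y = dd T x y) (hP : PAIR D) :
    ARMB := by
  obtain ⟨a, c, CP, R1, ha, ha1, hc, hCP, hpv⟩ := pv_le hD hP (A := 16) (by norm_num)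
    (1 / 80) (1 / 4) (by norm_num) (by norm_num)
  have hl2 : 0 < Real.log 2 := Real.log_pos (by norm_num)
  obtain ⟨R2, hR2⟩ : ∃ R2 : ℕ, ∀ R : ℕ, R2 ≤ R → 1 ≤ R ∧ 64000 ≤ (R : ℝ) ^ (1 / 80 : ℝ) := by
    have t1 : Filter.Tendsto (fun R : ℕ => (R : ℝ) ^ (1 / 80 : ℝ)) Filter.atTop Filter.atTop :=
      (tendsto_rpow_atTop (by norm_num)).comp tendsto_natCast_atTop_atTop
    exact Filter.eventually_atTop.1
      ((Filter.eventually_ge_atTop 1).and (t1.eventually_ge_atTop 64000))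
  refine ⟨1 / 2, c * Real.log 2, max (CP * cArm c * 164 ^ c) (Real.exp (c * Real.log 2 * 3)), 1,
    by norm_num, by norm_num, by positivity, by positivity, by norm_num, max R1 R2, ?_⟩
  intro R T hR hfit f φ h N hTr K hK k hk hyp
  have hRa : R1 ≤ R := (le_max_left _ _).trans hR
  obtain ⟨hR1, hR64⟩ := hR2 R ((le_max_right _ _).trans hR)
  rcases Nat.lt_or_ge k 3 with hk3 | hk3
  · have h1 : Pr T.V (EvA (trc φ) K k) ≤ 1 := E.Pr_le_one _ _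
    refine h1.trans ?_
    have h2 : (1 : ℝ) ≤ Real.exp (c * Real.log 2 * 3) * Real.exp (-(c * Real.log 2 * k)) := by
      rw [← Real.exp_add]
      apply Real.one_le_exp
      have : (k : ℝ) ≤ 3 := by exact_mod_cast hk3.le
      have h3 : 0 < c * Real.log 2 := by positivity
      nlinarith
    refine h2.trans ?_
    gcongr
    exact le_max_right _ _
  · have hvis : ∀ ω ∈ DD T.V, ∀ L ∈ Loops ω, ∀ w ∈ trc φ ω L, VisW φ 16 ω L w :=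
      fun ω hω L hL w hw => visW_of_mem T211B.sp h hω hL hw
    have hm := arm hTr hc hCP hk3 hk (by
      intro W _ W' _ hW hW'
      obtain ⟨w, hw, hw1, hw2⟩ := hW
      obtain ⟨w', hw', hw1', hw2'⟩ := hW'
      have g := geo hk3 hk hw hw' hw2 hw1' hw2'
      exact hpv R T hRa hfit f φ h (trc φ) hvis W W' w w' _ hw hw' (by positivity) g.sep
        (good h ha ha1 hR1 hR64 hk g hyp))
    refine hm.trans ?_
    have e : CP * cArm c * (164 * (1 / 2) ^ k) ^ c =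
        CP * cArm c * 164 ^ c * Real.exp (-(c * Real.log 2 * k)) := by
      rw [Real.mul_rpow (by norm_num) (by positivity), ← mul_assoc]
      congr 1
      rw [← Real.rpow_natCast, ← Real.rpow_mul (by norm_num),
        Real.rpow_def_of_pos (by norm_num)]
      congr 1
      rw [one_div, Real.log_inv]
      ring
    rw [e]
    gcongr
    exact le_max_left _ _

end Vale.Agent.P155.A801
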