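import Vale.Agent.P155.EX.Iface

/-!
# P155, NT, block F (geometry): interface with block E

`TOUCHP` (lattice level) is the output of block E; `EX.PIN` and `EX.BDT` follow from it.
-/

namespace Vale.Agent.P155.NT

open Vale.Agent.P155 Skel

/-- `v, suc v, …, suc^m v` is a crossing (in either sense) of the annulus
`box q r2 \ box q r1`. -/
structure ACr (ω : Conf) (q : Pt) (r1 r2 : ℕ) (v : Pt) (m : ℕ) : Prop where
  loop : ω.1 v ≠ ω.2 v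
  mid : ∀ j, 0 < j → j < m → r1 < dn q ((SW.suc ω)^[j] v) ∧ dn q ((SW.suc ω)^[j] v) < r2
  ends : (dn q v = r1 ∧ dn q ((SW.suc ω)^[m] v) = r2) ∨
    (dn q v = r2 ∧ dn q ((SW.suc ω)^[m] v) = r1)

/-- number of crossings of the annulus -/
noncomputable def NX (ω : Conf) (q : Pt) (r1 r2 : ℕ) : ℕ := Set.ncard {v | ∃ m, ACr ω q r1 r2 v m}

/-- A loop which meets the line `x = xS` touches, in `box q r` and at distance `≤ e`, either itself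
(both arcs leave `box q (8 r)`) or the outside of the polygon. -/
def TouchIn (T : Temp) (xS : ℤ) (q : Pt) (r e : ℕ) (ω : Conf) : Prop :=
  ∃ v, ω.1 v ≠ ω.2 v ∧ dn q v ≤ r ∧ (∃ y, (xS, y) ∈ comp ω v) ∧
    ((∃ i ≤ (comp ω v).ncard, dn v ((SW.suc ω)^[i] v) ≤ e ∧
      (∃ j ≤ i, 8 * r < dn q ((SW.suc ω)^[j] v)) ∧
      ∃ j, i ≤ j ∧ j ≤ (comp ω v).ncard ∧ 8 * r < dn q ((SW.suc ω)^[j] v)) ∨
    ∃ f, f ∉ T.faceSet ∧ dn f v ≤ e)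

/-- **TOUCHP**: output of block E. -/
def TOUCHP : Prop :=
  ∀ c ε : ℝ, 0 < c → 0 < ε → ∀ K : ℕ, ∃ η : ℝ, 0 < η ∧ ∃ R0 : ℕ, ∀ R : ℕ, R0 ≤ R → ∀ T : Temp,
    Fits T R → ∀ (xS : ℤ) (q : Pt) (r : ℕ), c * R ≤ r → (16 * r : ℤ) ≤ |q.1 - xS| →
    Pr T.V (fun ω => TouchIn T xS q r ⌊η * R⌋₊ ω ∧ NX ω q (2 * r) (4 * r) ≤ K) ≤ ε

end Vale.Agent.P155.NT
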