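import Vale.Agent.P155.A801.Pieces
import Vale.Agent.P155.N924.Limits
import Vale.Agent.P155.H878.Coord

/-!
# P155, NT, block F: deterministic geometry
-/

namespace Vale.Agent.P155.NT

open Topology Filter MeasureTheory TopologicalSpace Vale.Agent.P155 Vale.Agent.P155.Q1 Skel

theorem dn_cast' (u v : Pt) : ((dn u v : ℕ) : ℝ) = max |(u.1 : ℝ) - v.1| |(u.2 : ℝ) - v.2| := by
  have h := H904.dn_cast u v
  have h2 : (((dn u v : ℕ) : ℤ) : ℝ) = ((max |u.1 - v.1| |u.2 - v.2| : ℤ) : ℝ) := by rw [h]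
  push_cast at h2
  exact h2

/-- Euclidean distance and `dn` -/
theorem dist_le_dn {δ : ℝ} (hδ : 0 < δ) (a : ℂ) (u v : Pt) :
    dist (pt δ a u) (pt δ a v) ≤ 2 * δ * dn u v := by
  rw [dist_eq_norm]
  refine (Complex.norm_le_abs_re_add_abs_im _).trans ?_
  rw [Complex.sub_re, Complex.sub_im, pt_re, pt_re, pt_im, pt_im]
  have e1 : a.re + δ * (u.1 : ℝ) - (a.re + δ * v.1) = δ * (u.1 - v.1) := by ring
  have e2 : a.im + δ * (u.2 : ℝ) - (a.im + δ * v.2) = δ * (u.2 - v.2) := by ring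
  rw [e1, e2, abs_mul, abs_mul, abs_of_pos hδ, dn_cast']
  have h1 := le_max_left |(u.1 : ℝ) - v.1| |(u.2 : ℝ) - v.2|
  have h2 := le_max_right |(u.1 : ℝ) - v.1| |(u.2 : ℝ) - v.2|
  nlinarith

theorem dn_le_dist {δ : ℝ} (hδ : 0 < δ) (a : ℂ) (u v : Pt) :
    δ * dn u v ≤ dist (pt δ a u) (pt δ a v) := by
  rw [dist_eq_norm, dn_cast']
  have h1 := Complex.abs_re_le_norm (pt δ a u - pt δ a v)
  have h2 := Complex.abs_im_le_norm (pt δ a u - pt δ a v)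
  rw [Complex.sub_re, pt_re, pt_re] at h1
  rw [Complex.sub_im, pt_im, pt_im] at h2
  have e1 : a.re + δ * (u.1 : ℝ) - (a.re + δ * v.1) = δ * (u.1 - v.1) := by ring
  have e2 : a.im + δ * (u.2 : ℝ) - (a.im + δ * v.2) = δ * (u.2 - v.2) := by ring
  rw [e1, abs_mul, abs_of_pos hδ] at h1
  rw [e2, abs_mul, abs_of_pos hδ] at h2
  rcases max_choice |(u.1 : ℝ) - v.1| |(u.2 : ℝ) - v.2| with h | h <;> rw [h] <;> assumption

/-- many crossings of an annulus are many disjoint pieces -/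
theorem many_of_nx {Ω : Set ℂ} (S : TempApprox Ω) {n : ℕ} {ω : Conf} (hω : ω ∈ DD (S.T n).V)
    {q : Pt} {r1 r2 : ℕ} {ρ : ℝ} (hρ : ρ ≤ S.δ n * (r2 - r1 : ℝ)) {K : ℕ}
    (hK : K < NX ω q r1 r2) : ManyP S n ρ K ω := by
  classical
  have hfin : {v | ∃ m, ACr ω q r1 r2 v m}.Finite := by
    apply (S.T n).V.finite_toSet.subset
    rintro v ⟨m, hm⟩
    exact mem_V_of_loop hω hm.loop
  choose! m hm using fun v (hv : v ∈ {v | ∃ m, ACr ω q r1 r2 v m}) => hv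
  refine ⟨hfin.toFinset.image (fun v => (v, m v)), ?_, ?_, ?_⟩
  · rw [Finset.card_image_of_injOn (fun u _ v _ h => (Prod.ext_iff.1 h).1)]
    rw [NX, Set.ncard_eq_toFinset_card _ hfin] at hK
    exact hK
  · intro p hp
    obtain ⟨v, hv, rfl⟩ := Finset.mem_image.1 hp
    have h := hm v (hfin.mem_toFinset.1 hv)
    refine ⟨h.loop, 0, Nat.zero_le _, m v, le_rfl, ?_⟩
    refine le_trans ?_ (dn_le_dist (S.pos n) (S.a n) _ _)
    refine hρ.trans (mul_le_mul_of_nonneg_left ?_ (S.pos n).le)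
    have h2 : r2 ≤ r1 + dn v ((SW.suc ω)^[m v] v) := by
      have t1 := H904.dn_tri q v ((SW.suc ω)^[m v] v)
      have t2 := H904.dn_tri q ((SW.suc ω)^[m v] v) v
      rw [H904.dn_comm ((SW.suc ω)^[m v] v) v] at t2
      rcases h.ends with ⟨e1, e2⟩ | ⟨e1, e2⟩ <;> omega
    have h3 : (r2 : ℝ) ≤ r1 + dn v ((SW.suc ω)^[m v] v) := by exact_mod_cast h2
    simp only [Function.iterate_zero, id_eq]
    linarith
  · intro p hp p' hp' hne i hi i' hi' he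
    obtain ⟨v, hv, rfl⟩ := Finset.mem_image.1 hp
    obtain ⟨v', hv', rfl⟩ := Finset.mem_image.1 hp'
    have h := hm v (hfin.mem_toFinset.1 hv)
    have h' := hm v' (hfin.mem_toFinset.1 hv')
    simp only at hi hi' he
    have key : ∀ {v v' : Pt} {i i' : ℕ}, ACr ω q r1 r2 v (m v) → ACr ω q r1 r2 v' (m v') →
        i' < m v' → i ≤ i' → (SW.suc ω)^[i] v = (SW.suc ω)^[i'] v' → v = v' := by
      intro v v' i i' h h' hi' hii he
      have e : (SW.suc ω)^[i] v = (SW.suc ω)^[i] ((SW.suc ω)^[i' - i] v') := by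
        rw [← Function.iterate_add_apply, he]
        congr 1
        omega
      have e2 := (Function.Injective.iterate (suc_inj hω) i) e
      rcases Nat.eq_zero_or_pos (i' - i) with h0 | h0
      · rw [h0] at e2
        exact e2
      · exfalso
        have h1 := h'.mid (i' - i) h0 (by omega)
        rw [← e2] at h1
        rcases h.ends with ⟨h2, -⟩ | ⟨h2, -⟩ <;> omega
    rcases le_total i i' with hii | hii
    · exact hne (by rw [key h h' hi' hii he])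
    · exact hne (by rw [key h' h hi hii he.symm])

/-- discrete intermediate value -/
theorem exists_eq_of_step {x : ℕ → ℤ} {m : ℕ} (hst : ∀ i < m, |x (i + 1) - x i| ≤ 1) {t : ℤ}
    (h : (x 0 ≤ t ∧ t ≤ x m) ∨ (x m ≤ t ∧ t ≤ x 0)) : ∃ i ≤ m, x i = t := by
  induction m with
  | zero => exact ⟨0, le_rfl, by omega⟩
  | succ m ih =>
    have h1 := abs_le.1 (hst m (by omega))
    by_cases h2 : x (m + 1) = t
    · exact ⟨m + 1, le_rfl, h2⟩
    · obtain ⟨i, hi, hxi⟩ := ih (fun i hi => hst i (by omega)) (by omega)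
      exact ⟨i, by omega, hxi⟩

theorem adj_coord {u v : Pt} (h : Adj u v) : |v.1 - u.1| ≤ 1 ∧ |v.2 - u.2| ≤ 1 := by
  have h' : |u.1 - v.1| + |u.2 - v.2| = 1 := h
  have h1 := abs_nonneg (u.1 - v.1)
  have h2 := abs_nonneg (u.2 - v.2)
  rw [abs_sub_comm v.1, abs_sub_comm v.2]
  omega

/-- the loop of `v` meets the vertical lines between `v` and `suc^a v` -/
theorem meets_line {V : Finset Pt} {ω : Conf} (hω : ω ∈ DD V) {v : Pt} (hv : ω.1 v ≠ ω.2 v) {a : ℕ}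
    {t : ℤ} (h : (v.1 ≤ t ∧ t ≤ ((SW.suc ω)^[a] v).1) ∨ (((SW.suc ω)^[a] v).1 ≤ t ∧ t ≤ v.1)) :
    ∃ y, (t, y) ∈ comp ω v := by
  have hvV : v ∈ V := mem_V_of_loop hω hv
  obtain ⟨i, -, hi⟩ := exists_eq_of_step (x := fun i => ((SW.suc ω)^[i] v).1) (m := a)
    (fun i _ => (adj_coord (iter_adj hω hvV i)).1) h
  refine ⟨((SW.suc ω)^[i] v).2, ?_⟩
  have := iter_comp ω v i
  rw [show (t, ((SW.suc ω)^[i] v).2) = (SW.suc ω)^[i] v from Prod.ext hi.symm rfl]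
  exact this

theorem meets_line' {V : Finset Pt} {ω : Conf} (hω : ω ∈ DD V) {v : Pt} (hv : ω.1 v ≠ ω.2 v)
    {a : ℕ} {t : ℤ}
    (h : (v.2 ≤ t ∧ t ≤ ((SW.suc ω)^[a] v).2) ∨ (((SW.suc ω)^[a] v).2 ≤ t ∧ t ≤ v.2)) :
    ∃ x, (x, t) ∈ comp ω v := by
  have hvV : v ∈ V := mem_V_of_loop hω hv
  obtain ⟨i, -, hi⟩ := exists_eq_of_step (x := fun i => ((SW.suc ω)^[i] v).2) (m := a)
    (fun i _ => (adj_coord (iter_adj hω hvV i)).2) h
  refine ⟨((SW.suc ω)^[i] v).1, ?_⟩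
  have := iter_comp ω v i
  rw [show (((SW.suc ω)^[i] v).1, t) = (SW.suc ω)^[i] v from Prod.ext rfl hi.symm]
  exact this

/-- the last factor of `TouchIn` -/
def TLast (T : Temp) (q : Pt) (r e : ℕ) (ω : Conf) (v : Pt) : Prop :=
  (∃ i ≤ (comp ω v).ncard, dn v ((SW.suc ω)^[i] v) ≤ e ∧
      (∃ j ≤ i, 8 * r < dn q ((SW.suc ω)^[j] v)) ∧
      ∃ j, i ≤ j ∧ j ≤ (comp ω v).ncard ∧ 8 * r < dn q ((SW.suc ω)^[j] v)) ∨
    ∃ f, f ∉ T.faceSet ∧ dn f v ≤ e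

/-- A loop which meets the line `y = yS` touches itself or the outside of the polygon. -/
def TouchInT (T : Temp) (yS : ℤ) (q : Pt) (r e : ℕ) (ω : Conf) : Prop :=
  ∃ v, ω.1 v ≠ ω.2 v ∧ dn q v ≤ r ∧ (∃ x, (x, yS) ∈ comp ω v) ∧ TLast T q r e ω v

/-- **TOUCHPT**: the transposed form of `TOUCHP`. -/
def TOUCHPT : Prop :=
  ∀ c ε : ℝ, 0 < c → 0 < ε → ∀ K : ℕ, ∃ η : ℝ, 0 < η ∧ ∃ R0 : ℕ, ∀ R : ℕ, R0 ≤ R → ∀ T : Temp,
    Fits T R → ∀ (yS : ℤ) (q : Pt) (r : ℕ), c * R ≤ r → (16 * r : ℤ) ≤ |q.2 - yS| →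
    Pr T.V (fun ω => TouchInT T yS q r ⌊η * R⌋₊ ω ∧ NX ω q (2 * r) (4 * r) ≤ K) ≤ ε

/-- the index set of the nets -/
noncomputable def net (N : ℕ) : Finset ((ℤ × ℤ) × ℤ) :=
  (Finset.Icc (-(N : ℤ)) N ×ˢ Finset.Icc (-(N : ℤ)) N) ×ˢ {1, -1}

/-- the centre of the box -/
def ctrN (r : ℕ) (p : (ℤ × ℤ) × ℤ) : Pt := (p.1.1 * r, p.1.2 * r)

theorem net_card_pos (N : ℕ) : 0 < (net N).card := by
  apply Finset.card_pos.2
  refine ⟨((0, 0), 1), ?_⟩
  unfold net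
  simp

theorem exists_ctr {r N : ℕ} (hr : 0 < r) {v : Pt} (h1 : |v.1| ≤ N * r) (h2 : |v.2| ≤ N * r) :
    ∃ k l : ℤ, (∀ σ : ℤ, σ = 1 ∨ σ = -1 → ((k, l), σ) ∈ net N) ∧
      (k * r ≤ v.1 ∧ v.1 < k * r + r) ∧ l * r ≤ v.2 ∧ v.2 < l * r + r := by
  have hr' : (0 : ℤ) < r := by exact_mod_cast hr
  have key : ∀ x : ℤ, |x| ≤ N * r → (-(N : ℤ) ≤ x / r ∧ x / r ≤ N) ∧
      x / r * r ≤ x ∧ x < x / r * r + r := by
    intro x hx
    rw [abs_le] at hx
    have e1 := Int.ediv_mul_le x hr'.ne'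
    have e2 := Int.lt_ediv_add_one_mul_self x hr'
    rw [add_mul, one_mul] at e2
    refine ⟨⟨?_, ?_⟩, e1, e2⟩
    · rw [Int.le_ediv_iff_mul_le hr']
      linarith [hx.1]
    · have : x / r ≤ N * r / r := Int.ediv_le_ediv hr' hx.2
      rwa [Int.mul_ediv_cancel _ hr'.ne'] at this
  obtain ⟨⟨a1, a2⟩, a3, a4⟩ := key v.1 h1
  obtain ⟨⟨b1, b2⟩, b3, b4⟩ := key v.2 h2
  refine ⟨v.1 / r, v.2 / r, ?_, ⟨a3, a4⟩, b3, b4⟩
  intro σ hσ
  unfold net
  rw [Finset.mem_product, Finset.mem_product, Finset.mem_Icc, Finset.mem_Icc]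
  refine ⟨⟨⟨a1, a2⟩, b1, b2⟩, ?_⟩
  simp only [Finset.mem_insert, Finset.mem_singleton]
  exact hσ

/-- **the net**: a loop of size `≥ 66 r` through `v` meets a line far from the box of `v`. -/
theorem touch_net {T : Temp} {ω : Conf} (hω : ω ∈ DD T.V) {r N e : ℕ} (hr : 0 < r) {v : Pt}
    (hv : ω.1 v ≠ ω.2 v) (h1 : |v.1| ≤ N * r) (h2 : |v.2| ≤ N * r) {a : ℕ}
    (ha : 60 * r ≤ dn v ((SW.suc ω)^[a] v)) (hl : ∀ q, dn q v ≤ r → TLast T q r e ω v) :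
    ∃ p ∈ net N, TouchIn T ((ctrN r p).1 + 18 * p.2 * r) (ctrN r p) r e ω ∨
      TouchInT T ((ctrN r p).2 + 18 * p.2 * r) (ctrN r p) r e ω := by
  obtain ⟨k, l, hkl, ⟨a1, a2⟩, b1, b2⟩ := exists_ctr hr h1 h2
  have hr' : (0 : ℤ) < r := by exact_mod_cast hr
  have hdn : ∀ σ : ℤ, dn (ctrN r ((k, l), σ)) v ≤ r := by
    intro σ
    rw [H904.dn_le_iff]
    unfold ctrN
    simp only
    constructor <;> rw [abs_le] <;> constructor <;> linarith
  have hu := H904.dn_cast v ((SW.suc ω)^[a] v)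
  set u := (SW.suc ω)^[a] v with hudef
  have hcase : (60 * r : ℤ) ≤ |v.1 - u.1| ∨ (60 * r : ℤ) ≤ |v.2 - u.2| := by
    have h3 : (60 * r : ℤ) ≤ ((dn v u : ℕ) : ℤ) := by exact_mod_cast ha
    rw [hu] at h3
    exact le_max_iff.1 h3
  rcases hcase with hc | hc
  · rcases le_total u.1 v.1 with h3 | h3
    · rw [abs_of_nonneg (by linarith)] at hc
      refine ⟨((k, l), -1), hkl _ (Or.inr rfl), Or.inl ⟨v, hv, hdn _, ?_, hl _ (hdn _)⟩⟩
      apply meets_line hω hv (a := a)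
      right
      unfold ctrN
      simp only
      constructor <;> linarith
    · rw [abs_of_nonpos (by linarith)] at hc
      refine ⟨((k, l), 1), hkl _ (Or.inl rfl), Or.inl ⟨v, hv, hdn _, ?_, hl _ (hdn _)⟩⟩
      apply meets_line hω hv (a := a)
      left
      unfold ctrN
      simp only
      constructor <;> linarith
  · rcases le_total u.2 v.2 with h3 | h3
    · rw [abs_of_nonneg (by linarith)] at hc
      refine ⟨((k, l), -1), hkl _ (Or.inr rfl), Or.inr ⟨v, hv, hdn _, ?_, hl _ (hdn _)⟩⟩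
      apply meets_line' hω hv (a := a)
      right
      unfold ctrN
      simp only
      constructor <;> linarith
    · rw [abs_of_nonpos (by linarith)] at hc
      refine ⟨((k, l), 1), hkl _ (Or.inl rfl), Or.inr ⟨v, hv, hdn _, ?_, hl _ (hdn _)⟩⟩
      apply meets_line' hω hv (a := a)
      left
      unfold ctrN
      simp only
      constructor <;> linarith

end Vale.Agent.P155.NT
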