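import Vale.Agent.P155.A801.NTGeo
import Vale.Agent.P155.D877.Tight
import Vale.Agent.P155.NT814.Ring

/-!
# P155, NT: the number of crossings of an annulus is tight, uniformly over the polygons

`nx_tight_of`: from the lattice form `LC` of CROSS.  A crossing of the annulus
`box q b \ box q a` contains a crossing of one of four rectangles, and different crossings of the
annulus contain different ones.
-/

namespace Vale.Agent.P155.A801

open Vale.Agent.P155 Finset Skel NT Q1 T802 D877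

/-- a path which goes from `≤ p0` to `≥ p1` contains a crossing -/
theorem sub_cross {x : ℕ → ℤ} {m : ℕ} (hst : ∀ i < m, |x (i + 1) - x i| ≤ 1) {p0 p1 : ℤ}
    (hp : p0 < p1) (h0 : x 0 ≤ p0) (hm : p1 ≤ x m) :
    ∃ j l, j < l ∧ l ≤ m ∧ x j = p0 ∧ x l = p1 ∧ ∀ i, j < i → i < l → p0 < x i ∧ x i < p1 := by
  classical
  have hex : ∃ i, p1 ≤ x i := ⟨m, hm⟩
  obtain ⟨l, hl1, hlmin⟩ : ∃ l, p1 ≤ x l ∧ ∀ i < l, ¬ p1 ≤ x i :=
    ⟨Nat.find hex, Nat.find_spec hex, fun i hi => Nat.find_min hex hi⟩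
  have hlm : l ≤ m := by
    by_contra hc
    exact hlmin m (by omega) hm
  have hl0 : l ≠ 0 := by
    rintro rfl
    omega
  have hxl : x l = p1 := by
    have h1 := hlmin (l - 1) (by omega)
    have h2 := hst (l - 1) (by omega)
    rw [show l - 1 + 1 = l by omega, abs_le] at h2
    omega
  set P : ℕ → Prop := fun i => x i ≤ p0 with hP
  set j := Nat.findGreatest P (l - 1) with hj
  have hPj : P j := Nat.findGreatest_spec (P := P) (Nat.zero_le (l - 1)) h0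
  have hjl : j ≤ l - 1 := Nat.findGreatest_le _
  have hgr : ∀ i, j < i → i < l → p0 < x i := by
    intro i h1 h2
    by_contra hc
    exact Nat.findGreatest_is_greatest (P := P) h1 (by omega) (not_lt.1 hc)
  clear_value j
  have hxj : x j = p0 := by
    have h2 := hst j (by omega)
    rw [abs_le] at h2
    have h3 : x j ≤ p0 := hPj
    rcases Nat.lt_or_ge (j + 1) l with h4 | h4
    · have := hgr (j + 1) (by omega) h4
      omega
    · have : j + 1 = l := by omega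
      rw [this, hxl] at h2
      omega
  refine ⟨j, l, by omega, hlm, hxj, hxl, ?_⟩
  intro i h1 h2
  exact ⟨hgr i h1 h2, not_le.1 (hlmin i h2)⟩

/-- both directions -/
theorem sub_cross' {x : ℕ → ℤ} {m : ℕ} (hst : ∀ i < m, |x (i + 1) - x i| ≤ 1) {p0 p1 : ℤ}
    (hp : p0 < p1) (h : (x 0 ≤ p0 ∧ p1 ≤ x m) ∨ (p1 ≤ x 0 ∧ x m ≤ p0)) :
    ∃ j l, j < l ∧ l ≤ m ∧ ((x j = p0 ∧ x l = p1) ∨ (x j = p1 ∧ x l = p0)) ∧
      ∀ i, j < i → i < l → p0 < x i ∧ x i < p1 := by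
  rcases h with ⟨h0, hm⟩ | ⟨h0, hm⟩
  · obtain ⟨j, l, h1, h2, h3, h4, h5⟩ := sub_cross hst hp h0 hm
    exact ⟨j, l, h1, h2, Or.inl ⟨h3, h4⟩, h5⟩
  · obtain ⟨j, l, h1, h2, h3, h4, h5⟩ := sub_cross (x := fun i => - x i) (p0 := -p1) (p1 := -p0)
      (m := m) (fun i hi => by
        have := hst i hi
        rw [abs_le] at this ⊢
        omega) (by omega) (by simpa using h0) (by simpa using hm)
    refine ⟨j, l, h1, h2, Or.inr ⟨by simpa using h3, by simpa using h4⟩, ?_⟩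
    intro i h6 h7
    obtain ⟨h8, h9⟩ := h5 i h6 h7
    constructor
    · linarith
    · linarith

/-- the starts of the strands in a rectangle -/
def StS (p q : Pt → ℤ) (ω : Conf) (p0 p1 q0 q1 : ℤ) : Set Pt :=
  {v | ∃ m, Strand p q ω p0 p1 q0 q1 v m}

/-- the four rectangles of an annulus -/
def Rc (ω : Conf) (q : Pt) (a b : ℕ) : Set Pt :=
  StS Prod.fst Prod.snd ω (q.1 + a) (q.1 + b) (q.2 - b) (q.2 + b) ∪
  StS Prod.fst Prod.snd ω (q.1 - b) (q.1 - a) (q.2 - b) (q.2 + b) ∪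
  (StS Prod.snd Prod.fst ω (q.2 + a) (q.2 + b) (q.1 - b) (q.1 + b) ∪
  StS Prod.snd Prod.fst ω (q.2 - b) (q.2 - a) (q.1 - b) (q.1 + b))

/-- a sub-interval of a path which is a strand -/
theorem strand_of {V : Finset Pt} {ω : Conf} (hω : ω ∈ DD V) {p q : Pt → ℤ} {v : Pt} {m : ℕ}
    (hv : ω.1 v ≠ ω.2 v) {p0 p1 q0 q1 : ℤ}
    (hp : ∀ i < m, |p ((SW.suc ω)^[i + 1] v) - p ((SW.suc ω)^[i] v)| ≤ 1)
    (hq : ∀ i ≤ m, q0 ≤ q ((SW.suc ω)^[i] v) ∧ q ((SW.suc ω)^[i] v) ≤ q1) (h01 : p0 < p1)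
    (h : (p v ≤ p0 ∧ p1 ≤ p ((SW.suc ω)^[m] v)) ∨ (p1 ≤ p v ∧ p ((SW.suc ω)^[m] v) ≤ p0)) :
    ∃ j < m, (SW.suc ω)^[j] v ∈ StS p q ω p0 p1 q0 q1 := by
  obtain ⟨j, l, h1, h2, h3, h4⟩ := sub_cross' (x := fun i => p ((SW.suc ω)^[i] v)) hp h01 h
  refine ⟨j, by omega, l - j, ?_, ?_, ?_, ?_⟩
  · exact P155.L.loop_ne hω (comp_mem_Loops hv) (iter_comp ω v j)
  · intro i hi
    rw [← Function.iterate_add_apply]
    exact hq _ (by omega)
  · intro i hi hi'
    rw [← Function.iterate_add_apply]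
    exact h4 (i + j) (by omega) (by omega)
  · rw [← Function.iterate_add_apply, show l - j + j = l by omega]
    exact h3

/-- every crossing of the annulus contains a strand of one of the four rectangles -/
theorem sub_strand {V : Finset Pt} {ω : Conf} (hω : ω ∈ DD V) {q : Pt} {a b : ℕ} (hab : a < b)
    {v : Pt} {m : ℕ} (h : ACr ω q a b v m) : ∃ j < m, (SW.suc ω)^[j] v ∈ Rc ω q a b := by
  have hvV : v ∈ V := mem_V_of_loop hω h.loop
  have hst := fun i (_ : i < m) => NT.adj_coord (iter_adj hω hvV i)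
  have hin : ∀ i ≤ m, dn q ((SW.suc ω)^[i] v) ≤ b := by
    intro i hi
    rcases Nat.eq_zero_or_pos i with h0 | h0
    · rw [h0]
      simp only [Function.iterate_zero, id_eq]
      rcases h.ends with ⟨h1, h2⟩ | ⟨h1, h2⟩ <;> omega
    · rcases Nat.lt_or_ge i m with h1 | h1
      · exact (h.mid i h0 h1).2.le
      · have : i = m := le_antisymm hi h1
        rw [this]
        rcases h.ends with ⟨h1, h2⟩ | ⟨h1, h2⟩ <;> omega
  have hco : ∀ i ≤ m, (q.1 - b ≤ ((SW.suc ω)^[i] v).1 ∧ ((SW.suc ω)^[i] v).1 ≤ q.1 + b) ∧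
      (q.2 - b ≤ ((SW.suc ω)^[i] v).2 ∧ ((SW.suc ω)^[i] v).2 ≤ q.2 + b) := by
    intro i hi
    have := dn_le_iff'.1 (hin i hi)
    omega
  set w := (SW.suc ω)^[m] v with hw
  -- the four cases
  have key : ∀ u u' : Pt, dn q u = a → dn q u' = b →
      (u.1 ≤ q.1 + a ∧ q.1 + b ≤ u'.1) ∨ (q.1 - a ≤ u.1 ∧ u'.1 ≤ q.1 - b) ∨
      (u.2 ≤ q.2 + a ∧ q.2 + b ≤ u'.2) ∨ (q.2 - a ≤ u.2 ∧ u'.2 ≤ q.2 - b) := by
    intro u u' h1 h2
    have h3 := dn_eq_iff.1 h1
    have h4 := dn_eq_iff.1 h2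
    omega
  have hend : ∃ σ : Bool, (if σ then dn q v = a ∧ dn q w = b else dn q w = a ∧ dn q v = b) := by
    rcases h.ends with h1 | ⟨h1, h2⟩
    · exact ⟨true, by simpa using h1⟩
    · exact ⟨false, by simpa using ⟨h2, h1⟩⟩
  have hcase : ((v.1 ≤ q.1 + a ∧ q.1 + b ≤ w.1) ∨ (q.1 + b ≤ v.1 ∧ w.1 ≤ q.1 + a)) ∨
      ((v.1 ≤ q.1 - b ∧ q.1 - a ≤ w.1) ∨ (q.1 - a ≤ v.1 ∧ w.1 ≤ q.1 - b)) ∨
      ((v.2 ≤ q.2 + a ∧ q.2 + b ≤ w.2) ∨ (q.2 + b ≤ v.2 ∧ w.2 ≤ q.2 + a)) ∨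
      ((v.2 ≤ q.2 - b ∧ q.2 - a ≤ w.2) ∨ (q.2 - a ≤ v.2 ∧ w.2 ≤ q.2 - b)) := by
    rcases h.ends with ⟨h1, h2⟩ | ⟨h1, h2⟩
    · have := key v w h1 h2
      omega
    · have := key w v h2 h1
      omega
  rcases hcase with h1 | h1 | h1 | h1
  · obtain ⟨j, hj, h2⟩ := strand_of hω (p := Prod.fst) (q := Prod.snd) h.loop
      (fun i hi => (hst i hi).1) (fun i hi => (hco i hi).2)
      (show q.1 + (a : ℤ) < q.1 + b by omega) h1
    exact ⟨j, hj, Or.inl (Or.inl h2)⟩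
  · obtain ⟨j, hj, h2⟩ := strand_of hω (p := Prod.fst) (q := Prod.snd) h.loop
      (fun i hi => (hst i hi).1) (fun i hi => (hco i hi).2)
      (show q.1 - (b : ℤ) < q.1 - a by omega) h1
    exact ⟨j, hj, Or.inl (Or.inr h2)⟩
  · obtain ⟨j, hj, h2⟩ := strand_of hω (p := Prod.snd) (q := Prod.fst) h.loop
      (fun i hi => (hst i hi).2) (fun i hi => (hco i hi).1)
      (show q.2 + (a : ℤ) < q.2 + b by omega) h1
    exact ⟨j, hj, Or.inr (Or.inl h2)⟩
  · obtain ⟨j, hj, h2⟩ := strand_of hω (p := Prod.snd) (q := Prod.fst) h.loop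
      (fun i hi => (hst i hi).2) (fun i hi => (hco i hi).1)
      (show q.2 - (b : ℤ) < q.2 - a by omega) h1
    exact ⟨j, hj, Or.inr (Or.inr h2)⟩

theorem stS_finite {V : Finset Pt} {ω : Conf} (hω : ω ∈ DD V) (p q : Pt → ℤ) (p0 p1 q0 q1 : ℤ) :
    (StS p q ω p0 p1 q0 q1).Finite := by
  apply V.finite_toSet.subset
  rintro v ⟨m, hm⟩
  exact mem_V_of_loop hω hm.loop

/-- the number of crossings of an annulus is at most the number of strands in four rectangles -/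
theorem nx_le {V : Finset Pt} {ω : Conf} (hω : ω ∈ DD V) {q : Pt} {a b : ℕ} (hab : a < b) :
    NX ω q a b ≤
      (StS Prod.fst Prod.snd ω (q.1 + a) (q.1 + b) (q.2 - b) (q.2 + b)).ncard +
      (StS Prod.fst Prod.snd ω (q.1 - b) (q.1 - a) (q.2 - b) (q.2 + b)).ncard +
      ((StS Prod.snd Prod.fst ω (q.2 + a) (q.2 + b) (q.1 - b) (q.1 + b)).ncard +
      (StS Prod.snd Prod.fst ω (q.2 - b) (q.2 - a) (q.1 - b) (q.1 + b)).ncard) := by
  classical
  have hRf : (Rc ω q a b).Finite :=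
    ((stS_finite hω _ _ _ _ _ _).union (stS_finite hω _ _ _ _ _ _)).union
      ((stS_finite hω _ _ _ _ _ _).union (stS_finite hω _ _ _ _ _ _))
  have h1 : NX ω q a b ≤ (Rc ω q a b).ncard := by
    choose! m hm using fun v (hv : v ∈ {v | ∃ m, ACr ω q a b v m}) => hv
    choose! j hj hj' using fun v (hv : v ∈ {v | ∃ m, ACr ω q a b v m}) =>
      sub_strand hω hab (hm v hv)
    refine Set.ncard_le_ncard_of_injOn (fun v => (SW.suc ω)^[j v] v) (fun v hv => hj' v hv) ?_ hRf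
    have key : ∀ v v' : Pt, v ∈ {v | ∃ m, ACr ω q a b v m} → v' ∈ {v | ∃ m, ACr ω q a b v m} →
        j v ≤ j v' → (SW.suc ω)^[j v] v = (SW.suc ω)^[j v'] v' → v = v' := by
      intro v v' hv hv' hle he
      have e : (SW.suc ω)^[j v] v = (SW.suc ω)^[j v] ((SW.suc ω)^[j v' - j v] v') := by
        rw [← Function.iterate_add_apply, he]
        congr 1
        omega
      have e2 := (Function.Injective.iterate (suc_inj hω) (j v)) e
      rcases Nat.eq_zero_or_pos (j v' - j v) with h0 | h0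
      · rw [h0] at e2
        exact e2
      · exfalso
        have h3 := hj v' hv'
        have h1 := (hm v' hv').mid (j v' - j v) h0 (by omega)
        rw [← e2] at h1
        rcases (hm v hv).ends with ⟨h2, -⟩ | ⟨h2, -⟩ <;> omega
    intro v hv v' hv' he
    rcases le_total (j v) (j v') with h | h
    · exact key v v' hv hv' h he
    · exact (key v' v hv' hv h he.symm).symm
  refine h1.trans ((Set.ncard_union_le _ _).trans ?_)
  exact Nat.add_le_add (Set.ncard_union_le _ _) (Set.ncard_union_le _ _)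

/-- **tightness of the number of crossings of an annulus**, uniformly over the polygons -/
theorem nx_tight_of (h1 : LC Prod.fst Prod.snd) {c ε : ℝ} (hc : 0 < c) (hε : 0 < ε) :
    ∃ K R0 : ℕ, ∀ R : ℕ, R0 ≤ R → ∀ T : Temp, Fits T R → ∀ (q : Pt) (a b : ℕ),
      (a : ℝ) + c * R ≤ b → (b : ℝ) + c * R ≤ dF T.faceSet q →
      Pr T.V (fun ω => K < NX ω q a b) ≤ ε := by
  obtain ⟨M, R1, hM⟩ := h1 c (ε / 4) hc (by positivity)
  obtain ⟨M', R2, hM'⟩ := lc_tr h1 c (ε / 4) hc (by positivity)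
  refine ⟨2 * M + 2 * M', max (max R1 R2) 1, ?_⟩
  intro R hR T hfit q a b hab hb
  have hR1 : R1 ≤ R := ((le_max_left _ _).trans (le_max_left _ _)).trans hR
  have hR2 : R2 ≤ R := ((le_max_right _ _).trans (le_max_left _ _)).trans hR
  have hR3 : (1 : ℝ) ≤ R := by exact_mod_cast (le_max_right _ _).trans hR
  have hcR : 0 < c * R := by positivity
  have hlt : a < b := by
    have : (a : ℝ) < b := by linarith
    exact_mod_cast this
  have hT : ∃ p, p ∉ T.faceSet := D877.exists_notMem T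
  have deep : ∀ z : Pt, q.1 - b ≤ z.1 → z.1 ≤ q.1 + b → q.2 - b ≤ z.2 → z.2 ≤ q.2 + b →
      c * R ≤ dF T.faceSet z := by
    intro z g1 g2 g3 g4
    have h5 : dn q z ≤ b := NT.dn_le_iff'.2 (by omega)
    have h6 := H904.dF_lip hT q z
    have h7 : (dF T.faceSet q : ℝ) ≤ dF T.faceSet z + b := by
      have : dF T.faceSet q ≤ dF T.faceSet z + b := by omega
      exact_mod_cast this
    linarith
  have hcw : c * R ≤ (b : ℝ) + b := by
    have : (0 : ℝ) ≤ a := Nat.cast_nonneg _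
    linarith
  have f1 := hM R hR1 T hfit (q.1 + a) (q.1 + b) (q.2 - b) (q.2 + b)
    ⟨by push_cast; linarith, by push_cast; linarith,
      fun z g1 g2 g3 g4 => deep z (by omega) (by omega) g3 g4⟩
  have f2 := hM R hR1 T hfit (q.1 - b) (q.1 - a) (q.2 - b) (q.2 + b)
    ⟨by push_cast; linarith, by push_cast; linarith,
      fun z g1 g2 g3 g4 => deep z (by omega) (by omega) g3 g4⟩
  have f3 := hM' R hR2 T hfit (q.2 + a) (q.2 + b) (q.1 - b) (q.1 + b)
    ⟨by push_cast; linarith, by push_cast; linarith,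
      fun z g1 g2 g3 g4 => deep z g3 g4 (by omega) (by omega)⟩
  have f4 := hM' R hR2 T hfit (q.2 - b) (q.2 - a) (q.1 - b) (q.1 + b)
    ⟨by push_cast; linarith, by push_cast; linarith,
      fun z g1 g2 g3 g4 => deep z g3 g4 (by omega) (by omega)⟩
  have hor : ∀ ω ∈ DD T.V, 2 * M + 2 * M' < NX ω q a b →
      ((M < (StS Prod.fst Prod.snd ω (q.1 + a) (q.1 + b) (q.2 - b) (q.2 + b)).ncard ∨
      M < (StS Prod.fst Prod.snd ω (q.1 - b) (q.1 - a) (q.2 - b) (q.2 + b)).ncard) ∨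
      (M' < (StS Prod.snd Prod.fst ω (q.2 + a) (q.2 + b) (q.1 - b) (q.1 + b)).ncard ∨
      M' < (StS Prod.snd Prod.fst ω (q.2 - b) (q.2 - a) (q.1 - b) (q.1 + b)).ncard)) := by
    intro ω hω h
    have := nx_le hω (q := q) hlt
    omega
  refine (E.Pr_mono hor).trans ?_
  refine (E.Pr_or_le _ _ _).trans ?_
  have g1 := E.Pr_or_le T.V
    (fun ω => M < (StS Prod.fst Prod.snd ω (q.1 + a) (q.1 + b) (q.2 - b) (q.2 + b)).ncard)
    (fun ω => M < (StS Prod.fst Prod.snd ω (q.1 - b) (q.1 - a) (q.2 - b) (q.2 + b)).ncard)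
  have g2 := E.Pr_or_le T.V
    (fun ω => M' < (StS Prod.snd Prod.fst ω (q.2 + a) (q.2 + b) (q.1 - b) (q.1 + b)).ncard)
    (fun ω => M' < (StS Prod.snd Prod.fst ω (q.2 - b) (q.2 - a) (q.1 - b) (q.1 + b)).ncard)
  unfold StS at g1 g2 ⊢
  linarith

/-- the same for a bounded number of annuli at the same time -/
theorem nx_tight_fin_of (h1 : LC Prod.fst Prod.snd) {c ε : ℝ} (hc : 0 < c) (hε : 0 < ε) (N : ℕ) :
    ∃ K R0 : ℕ, ∀ R : ℕ, R0 ≤ R → ∀ T : Temp, Fits T R → ∀ Q : Finset (Pt × ℕ × ℕ), Q.card ≤ N →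
      (∀ p ∈ Q, (p.2.1 : ℝ) + c * R ≤ p.2.2 ∧ (p.2.2 : ℝ) + c * R ≤ dF T.faceSet p.1) →
      Pr T.V (fun ω => ∃ p ∈ Q, K < NX ω p.1 p.2.1 p.2.2) ≤ ε := by
  obtain ⟨K, R0, hK⟩ := nx_tight_of h1 hc (ε := ε / (N + 1)) (by positivity)
  refine ⟨K, R0, ?_⟩
  intro R hR T hfit Q hQ hp
  refine (E.Pr_exists_le_card T.V Q (fun p ω => K < NX ω p.1 p.2.1 p.2.2) (b := ε / (N + 1)) ?_).trans
    ?_
  · intro p hpQ
    exact hK R hR T hfit p.1 p.2.1 p.2.2 (hp p hpQ).1 (hp p hpQ).2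
  · have h2 : (Q.card : ℝ) ≤ N + 1 := by
      have : (Q.card : ℝ) ≤ N := by exact_mod_cast hQ
      linarith
    calc (Q.card : ℝ) * (ε / (N + 1)) ≤ (N + 1) * (ε / (N + 1)) :=
          mul_le_mul_of_nonneg_right h2 (by positivity)
      _ = ε := by field_simp

end Vale.Agent.P155.A801
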