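import Vale.Agent.P155.A801.NXT
import Vale.Agent.P155.QQ.Asm

/-!
# P155, NT: tightness of the number of crossings of an annulus
-/

namespace Vale.Agent.P155.A801

open Vale.Agent.P155 Finset Skel NT Q1 T802 D877

theorem lcQ : LC Prod.fst Prod.snd := S7.lc (S7.crosss (S7.crossn QQ.step))

/-- **tightness of the number of crossings of an annulus**, uniformly over the polygons -/
theorem nx_tight (c ε : ℝ) (hc : 0 < c) (hε : 0 < ε) :
    ∃ K R0 : ℕ, ∀ R : ℕ, R0 ≤ R → ∀ T : Temp, Fits T R → ∀ (q : Pt) (a b : ℕ),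
      (a : ℝ) + c * R ≤ b → (b : ℝ) + c * R ≤ dF T.faceSet q →
      Pr T.V (fun ω => K < NX ω q a b) ≤ ε :=
  nx_tight_of lcQ hc hε

/-- the same for a bounded number of annuli at the same time -/
theorem nx_tight_fin (c ε : ℝ) (hc : 0 < c) (hε : 0 < ε) (N : ℕ) :
    ∃ K R0 : ℕ, ∀ R : ℕ, R0 ≤ R → ∀ T : Temp, Fits T R → ∀ Q : Finset (Pt × ℕ × ℕ), Q.card ≤ N →
      (∀ p ∈ Q, (p.2.1 : ℝ) + c * R ≤ p.2.2 ∧ (p.2.2 : ℝ) + c * R ≤ dF T.faceSet p.1) →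
      Pr T.V (fun ω => ∃ p ∈ Q, K < NX ω p.1 p.2.1 p.2.2) ≤ ε :=
  nx_tight_fin_of lcQ hc hε N

end Vale.Agent.P155.A801
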