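import Vale.Agent.P155.A801.NTF
import Vale.Agent.P155.H878.Str
import Vale.Agent.P155.E.Prob

/-!
# P155, NT, block F: the number of macroscopic pieces of loops is tight, also near the boundary
-/

namespace Vale.Agent.P155.NT

open Topology Filter MeasureTheory TopologicalSpace Vale.Agent.P155 Vale.Agent.P155.Q1

/-- a piece which starts at a deep point and reaches distance `8 h` crosses a rectangle of the
family `fam` -/
theorem piece_cross {Ω : Set ℂ} (S : TempApprox Ω) {n : ℕ} {ω : Conf} (hω : ω ∈ DD (S.T n).V)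
    {h : ℚ} (hh : 0 < h) {κ : ℝ} (hκ : 32 * (h : ℝ) ≤ κ) (hδj : S.δ n < h / 2) {v : Pt}
    (hv : ω.1 v ≠ ω.2 v) {c i' : ℕ} (hci : c ≤ i')
    (hball : Metric.closedBall (pt (S.δ n) (S.a n) ((SW.suc ω)^[c] v)) (16 * h) ⊆ Ω)
    (hfar : 8 * (h : ℝ) ≤ dist (pt (S.δ n) (S.a n) ((SW.suc ω)^[i'] v))
      (pt (S.δ n) (S.a n) ((SW.suc ω)^[c] v))) :
    ∃ R ∈ fam Ω κ h, ∃ i m', c ≤ i ∧ i + m' ≤ i' ∧ 0 < m' ∧ R.d.Crosses (S.δ n) (S.a n) ω
      R.r0 R.r1 R.s0 R.s1 ((SW.suc ω)^[i] v) m' := by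
  classical
  have hh0 : (0 : ℝ) < h := by exact_mod_cast hh
  have hδ := S.pos n
  set δ := S.δ n with hδdef
  set a := S.a n with hadef
  have hvV : v ∈ (S.T n).V := mem_V_of_loop hω hv
  set X : ℕ → ℂ := fun k => pt δ a ((SW.suc ω)^[k] v) with hX
  have hstep : ∀ k, dist (X (k + 1)) (X k) ≤ δ := fun k => by
    rw [dist_comm]
    exact (dist_pt hδ a (iter_adj hω hvV k)).le
  have hit : ∀ c k, (SW.suc ω)^[k] ((SW.suc ω)^[c] v) = (SW.suc ω)^[c + k] v := by
    intro c k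
    rw [add_comm, Function.iterate_add_apply]
  have hne : ∀ c, ω.1 ((SW.suc ω)^[c] v) ≠ ω.2 ((SW.suc ω)^[c] v) := fun c =>
    P155.L.loop_ne hω (comp_mem_Loops hv) (iter_comp ω v c)
  set z := X c with hz
  have hcontra : ¬ (|(X i').re - z.re| < 4 * (h : ℝ) ∧ |(X i').im - z.im| < 4 * (h : ℝ)) := by
    rintro ⟨c1, c2⟩
    have h1 := Complex.norm_le_abs_re_add_abs_im (X i' - z)
    rw [← dist_eq_norm, Complex.sub_re, Complex.sub_im] at h1
    have h2 : 8 * (h : ℝ) ≤ dist (X i') z := hfar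
    linarith
  have hex2 : ∃ k, 4 * (h : ℝ) ≤ |(X (c + k)).re - z.re| ∨
      4 * (h : ℝ) ≤ |(X (c + k)).im - z.im| := by
    refine ⟨i' - c, ?_⟩
    rw [show c + (i' - c) = i' by omega]
    by_contra hcon
    push Not at hcon
    exact hcontra hcon
  set j0 := Nat.find hex2 with hj0
  have hj1 : 4 * (h : ℝ) ≤ |(X (c + j0)).re - z.re| ∨ 4 * (h : ℝ) ≤ |(X (c + j0)).im - z.im| :=
    Nat.find_spec hex2
  have hj2 : j0 ≤ i' - c := by
    apply Nat.find_min' hex2
    rw [show c + (i' - c) = i' by omega]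
    by_contra hcon
    push Not at hcon
    exact hcontra hcon
  have hj3 : ∀ k, k < j0 → |(X (c + k)).re - z.re| < 4 * h ∧ |(X (c + k)).im - z.im| < 4 * h := by
    intro k hk
    have := Nat.find_min hex2 hk
    push Not at this
    exact this
  have hj4 : 0 < j0 := by
    rcases Nat.eq_zero_or_pos j0 with h0 | h0
    · rw [h0, add_zero] at hj1
      rw [← hz] at hj1
      simp only [sub_self, abs_zero] at hj1
      rcases hj1 with h1 | h1 <;> linarith
    · exact h0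
  have hj5 : ∀ k, k ≤ j0 → |(X (c + k)).re - z.re| ≤ 5 * h ∧ |(X (c + k)).im - z.im| ≤ 5 * h := by
    intro k hk
    rcases hk.lt_or_eq with h1 | h1
    · obtain ⟨h2, h3⟩ := hj3 k h1
      constructor <;> linarith
    · obtain ⟨h2, h3⟩ := hj3 (j0 - 1) (by omega)
      have h4 := hstep (c + (j0 - 1))
      rw [show c + (j0 - 1) + 1 = c + k by omega, dist_eq_norm] at h4
      have h5 := (Complex.abs_re_le_norm (X (c + k) - X (c + (j0 - 1)))).trans h4
      have h6 := (Complex.abs_im_le_norm (X (c + k) - X (c + (j0 - 1)))).trans h4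
      rw [Complex.sub_re] at h5
      rw [Complex.sub_im] at h6
      rw [abs_lt] at h2 h3
      rw [abs_le] at h5 h6 ⊢
      rw [abs_le]
      refine ⟨⟨?_, ?_⟩, ?_, ?_⟩ <;> linarith [h2.1, h2.2, h3.1, h3.2, h5.1, h5.2, h6.1, h6.2]
  -- the direction
  obtain ⟨d, hd', hdP, hdQ⟩ : ∃ d : Dir, (d = hor ∨ d = ver) ∧
      4 * (h : ℝ) ≤ |d.P (X (c + j0)) - d.P z| ∧ ∀ k ≤ j0, |d.Q (X (c + k)) - d.Q z| ≤ 5 * h := by
    rcases hj1 with h1 | h1
    · exact ⟨hor, Or.inl rfl, h1, fun k hk => (hj5 k hk).2⟩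
    · exact ⟨ver, Or.inr rfl, h1, fun k hk => (hj5 k hk).1⟩
  -- the rectangle
  set l : ℤ := ⌊d.Q z / h⌋ - 9 with hl
  have hl1 : d.Q z - 10 * h ≤ l * h := by
    have h1 := Int.lt_floor_add_one (d.Q z / h)
    rw [div_lt_iff₀ hh0] at h1
    rw [hl]
    push_cast
    linarith
  have hl2 : (l : ℝ) * h ≤ d.Q z - 9 * h := by
    have h1 := Int.floor_le (d.Q z / h)
    rw [le_div_iff₀ hh0] at h1
    rw [hl]
    push_cast
    linarith
  have hQ : ∀ k ≤ j0, (((l : ℚ) * h : ℚ) : ℝ) ≤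
      d.Q (pt δ a ((SW.suc ω)^[k] ((SW.suc ω)^[c] v))) ∧
      d.Q (pt δ a ((SW.suc ω)^[k] ((SW.suc ω)^[c] v))) ≤ ((((l : ℚ) + 20) * h : ℚ) : ℝ) := by
    intro k hk
    rw [hit]
    have h1 := abs_le.1 (hdQ k hk)
    push_cast
    constructor
    · show (l : ℝ) * h ≤ d.Q (X (c + k))
      linarith [h1.1]
    · show d.Q (X (c + k)) ≤ ((l : ℝ) + 20) * h
      linarith [h1.2]
  obtain ⟨k, hk1, hk2, hP⟩ : ∃ k : ℤ, d.P z - 2 * h ≤ k * h ∧ (k : ℝ) * h ≤ d.P z + h ∧
      ((d.P z ≤ (k : ℝ) * h ∧ ((k : ℝ) + 1) * h ≤ d.P (X (c + j0))) ∨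
        (((k : ℝ) + 1) * h ≤ d.P z ∧ d.P (X (c + j0)) ≤ (k : ℝ) * h)) := by
    rcases le_total 0 (d.P (X (c + j0)) - d.P z) with h1 | h1
    · rw [abs_of_nonneg h1] at hdP
      refine ⟨⌈d.P z / h⌉, ?_, ?_, Or.inl ⟨?_, ?_⟩⟩
      · have h2 := Int.le_ceil (d.P z / h)
        rw [div_le_iff₀ hh0] at h2
        linarith
      · have h2 := Int.ceil_lt_add_one (d.P z / h)
        rw [← sub_lt_iff_lt_add, lt_div_iff₀ hh0] at h2
        linarith
      · have h2 := Int.le_ceil (d.P z / h)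
        rw [div_le_iff₀ hh0] at h2
        linarith
      · have h2 := Int.ceil_lt_add_one (d.P z / h)
        rw [← sub_lt_iff_lt_add, lt_div_iff₀ hh0] at h2
        linarith
    · rw [abs_of_nonpos h1] at hdP
      refine ⟨⌊d.P z / h⌋ - 1, ?_, ?_, Or.inr ⟨?_, ?_⟩⟩
      · have h2 := Int.lt_floor_add_one (d.P z / h)
        rw [div_lt_iff₀ hh0] at h2
        push_cast
        linarith
      · have h2 := Int.floor_le (d.P z / h)
        rw [le_div_iff₀ hh0] at h2
        push_cast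
        linarith
      · have h2 := Int.floor_le (d.P z / h)
        rw [le_div_iff₀ hh0] at h2
        push_cast
        linarith
      · have h2 := Int.lt_floor_add_one (d.P z / h)
        rw [div_lt_iff₀ hh0] at h2
        push_cast
        linarith
  have hmem := mem_fam hh hd' hball hκ hk1 hk2 hl1 hl2
  obtain ⟨i2, m', h3, h4, h5⟩ := exists_crosses hω hδ a hd' (r0 := (((k : ℚ) * h : ℚ) : ℝ))
    (r1 := ((((k : ℚ) + 1) * h : ℚ) : ℝ)) (by push_cast; linarith) (hne c) hQ (by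
      rw [hit]
      push_cast
      exact hP)
  rw [hit] at h5
  exact ⟨_, hmem, c + i2, m', by omega, by omega, h4, h5⟩

/-- there are more than `K` disjoint pieces of loops of diameter `≥ ρ` -/
def ManyP {Ω : Set ℂ} (S : TempApprox Ω) (n : ℕ) (ρ : ℝ) (K : ℕ) (ω : Conf) : Prop :=
  ∃ A : Finset (Pt × ℕ), K < A.card ∧
    (∀ p ∈ A, ω.1 p.1 ≠ ω.2 p.1 ∧ Far S n ω ρ p.1 p.2) ∧
    ∀ p ∈ A, ∀ p' ∈ A, p ≠ p' → ∀ i < p.2, ∀ i' < p'.2,
      (SW.suc ω)^[i] p.1 ≠ (SW.suc ω)^[i'] p'.1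

/-- deep vertices are in `Ω` -/
theorem mem_of_deep {Ω : Set ℂ} (S : TempApprox Ω) {η : ℝ} (hη : 0 < η) :
    ∀ᶠ n in atTop, ∀ v ∈ (S.T n).V,
      η < Metric.infDist (pt (S.δ n) (S.a n) v) (frontier Ω) → pt (S.δ n) (S.a n) v ∈ Ω := by
  filter_upwards [S.outer η hη] with j hj v hv hd
  by_contra hcon
  obtain ⟨y, hy, hyd⟩ := Metric.mem_thickening_iff.1 (hj (pt_mem_region (S.pos _) _ hv))
  obtain ⟨w, hw, hwd⟩ := K.segment_frontier hy hcon
  have h1 := Metric.infDist_le_dist_of_mem (x := pt (S.δ j) (S.a j) v) hw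
  rw [dist_eq_norm] at h1 hyd
  linarith

/-- a ball around a deep point of `Ω` is in `Ω` -/
theorem ball_sub_of_deep {Ω : Set ℂ} {z : ℂ} (hz : z ∈ Ω) {r : ℝ}
    (h : r < Metric.infDist z (frontier Ω)) : Metric.closedBall z r ⊆ Ω := by
  intro y hy
  by_contra hcon
  obtain ⟨w, hw, hwd⟩ := K.segment_frontier (show y ∈ Ωᶜ from hcon) (fun h => h hz)
  rw [frontier_compl] at hw
  have h1 := Metric.infDist_le_dist_of_mem (x := z) hw
  rw [Metric.mem_closedBall, dist_comm, dist_eq_norm] at hy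
  rw [dist_eq_norm] at h1
  linarith

/-- **(F1) The number of disjoint macroscopic pieces of loops is tight.** -/
theorem pieces (hBD : BD) (hh : CROSS hor) (hv : CROSS ver) {Ω : Set ℂ} (hΩ : IsOpen Ω)
    (hb : Bornology.IsBounded Ω) (hne : Ω.Nonempty) (hsc : SimplyConnectedSpace Ω)
    (S : TempApprox Ω) {ρ ε : ℝ} (hρ : 0 < ρ) (hε : 0 < ε) :
    ∃ K : ℕ, ∀ᶠ n in atTop, Pr (S.T n).V (ManyP S n ρ K) ≤ ε := by
  classical
  obtain ⟨η, hη, hB⟩ := hBD Ω hΩ hb hne hsc S (ρ / 4) (by positivity) (ε / 2) (by positivity)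
  obtain ⟨h, hh0, hh1⟩ := exists_rat_btwn
    (show (0 : ℝ) < min (η / 32) (ρ / 64) by positivity)
  have hhq : 0 < h := by exact_mod_cast hh0
  have hhη : (h : ℝ) < η / 32 := hh1.trans_le (min_le_left _ _)
  have hhρ : (h : ℝ) < ρ / 64 := hh1.trans_le (min_le_right _ _)
  have hF := fam_finite hb (32 * (h : ℝ)) hhq
  set F := fam Ω (32 * (h : ℝ)) h with hFdef
  have hM : ∀ R ∈ F, ∃ M : ℕ, ∀ᶠ n in atTop, Pr (S.T n).V (fun ω =>
      M < Set.ncard {v | ∃ m, R.d.Crosses (S.δ n) (S.a n) ω R.r0 R.r1 R.s0 R.s1 v m}) ≤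
        ε / (2 * (hF.toFinset.card + 1)) := by
    rintro R ⟨hd, ⟨k, l, h1, h2, h3, h4⟩, hbig, -⟩
    have e1 : (R.r0 : ℝ) < R.r1 := by
      have : R.r0 < R.r1 := by rw [h1, h2]; linarith
      exact_mod_cast this
    have e2 : (R.s0 : ℝ) < R.s1 := by
      have : R.s0 < R.s1 := by rw [h3, h4]; linarith
      exact_mod_cast this
    have e3 : R.d.rect R.r0 R.r1 R.s0 R.s1 ⊆ Ω := by
      refine Set.Subset.trans ?_ hbig
      intro w hw
      obtain ⟨w1, w2, w3, w4⟩ := hw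
      unfold RR.big Dir.rect
      simp only [Set.mem_ofPred_eq]
      push_cast
      refine ⟨?_, ?_, ?_, ?_⟩ <;> linarith
    have hCd : CROSS R.d := by
      rcases hd with hd | hd <;> rw [hd] <;> assumption
    exact hCd Ω hΩ hb hne hsc S R.r0 R.r1 R.s0 R.s1 e1 e2 e3 _ (by positivity)
  choose! M hM using hM
  refine ⟨∑ R ∈ hF.toFinset, M R, ?_⟩
  have hall : ∀ᶠ n in atTop, ∀ R ∈ F, Pr (S.T n).V (fun ω =>
      M R < Set.ncard {v | ∃ m, R.d.Crosses (S.δ n) (S.a n) ω R.r0 R.r1 R.s0 R.s1 v m}) ≤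
        ε / (2 * (hF.toFinset.card + 1)) := (eventually_all_finite hF).2 hM
  have hδ : ∀ᶠ n in atTop, S.δ n < h / 2 :=
    S.mesh.eventually (gt_mem_nhds (show (0 : ℝ) < h / 2 by positivity))
  filter_upwards [hB, hall, hδ, mem_of_deep S hη] with n hBn hMn hδn hdeep
  have hcov : ∀ ω ∈ DD (S.T n).V, ManyP S n ρ (∑ R ∈ hF.toFinset, M R) ω →
      ((∃ v m, ω.1 v ≠ ω.2 v ∧
      (∀ j ≤ m, Metric.infDist (pt (S.δ n) (S.a n) ((SW.suc ω)^[j] v)) (frontier Ω) ≤ η) ∧
      ∃ i ≤ m, ∃ j ≤ m, ρ / 4 ≤ dist (pt (S.δ n) (S.a n) ((SW.suc ω)^[i] v))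
        (pt (S.δ n) (S.a n) ((SW.suc ω)^[j] v))) ∨
      ∃ R ∈ hF.toFinset,
        M R < Set.ncard {v | ∃ m, R.d.Crosses (S.δ n) (S.a n) ω R.r0 R.r1 R.s0 R.s1 v m}) := by
    intro ω hω hmany
    by_contra hcon
    push Not at hcon
    obtain ⟨hnB, hnM⟩ := hcon
    obtain ⟨A, hAc, hA, hdis⟩ := hmany
    have hit : ∀ (v : Pt) c k, (SW.suc ω)^[k] ((SW.suc ω)^[c] v) = (SW.suc ω)^[c + k] v := by
      intro v c k
      rw [add_comm, Function.iterate_add_apply]
    -- every piece contains a crossing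
    have hch : ∀ p ∈ A, ∃ R ∈ F, ∃ i < p.2, ∃ m', R.d.Crosses (S.δ n) (S.a n) ω
        R.r0 R.r1 R.s0 R.s1 ((SW.suc ω)^[i] p.1) m' := by
      intro p hp
      obtain ⟨hloop, hfar⟩ := hA p hp
      have hvV : p.1 ∈ (S.T n).V := mem_V_of_loop hω hloop
      set X : ℕ → ℂ := fun k => pt (S.δ n) (S.a n) ((SW.suc ω)^[k] p.1) with hX
      have hstep : ∀ k, dist (X (k + 1)) (X k) ≤ S.δ n := fun k => by
        rw [dist_comm]
        exact (dist_pt (S.pos n) _ (iter_adj hω hvV k)).le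
      obtain ⟨c, hc, i', hi', hii, hd⟩ : ∃ i ≤ p.2, ∃ i' ≤ p.2, i < i' ∧ ρ ≤ dist (X i) (X i') := by
        obtain ⟨i, hi, i', hi', hd⟩ := hfar
        rcases lt_trichotomy i i' with h1 | h1 | h1
        · exact ⟨i, hi, i', hi', h1, hd⟩
        · rw [h1, dist_self] at hd
          linarith
        · exact ⟨i', hi', i, hi, h1, by rw [dist_comm]; exact hd⟩
      -- first time at distance `ρ / 4`
      have hex : ∃ k, c ≤ k ∧ ρ / 4 ≤ dist (X c) (X k) := ⟨i', hii.le, by linarith⟩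
      set t := Nat.find hex with ht
      obtain ⟨ht1, ht2⟩ := Nat.find_spec hex
      have ht3 : t ≤ i' := Nat.find_min' hex ⟨hii.le, by linarith⟩
      have ht4 : ∀ k, c ≤ k → k < t → dist (X c) (X k) < ρ / 4 := by
        intro k hk hkt
        have := Nat.find_min hex hkt
        push Not at this
        exact this hk
      have ht5 : ∀ k, c ≤ k → k ≤ t → dist (X c) (X k) ≤ ρ / 4 + S.δ n := by
        intro k hk hkt
        have hδp := S.pos n
        rcases hkt.lt_or_eq with h1 | h1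
        · linarith [ht4 k hk h1]
        · rcases hk.lt_or_eq with h2 | h2
          · have h3 := ht4 (k - 1) (by omega) (by omega)
            have h4 := hstep (k - 1)
            rw [show k - 1 + 1 = k by omega] at h4
            have h5 := dist_triangle (X c) (X (k - 1)) (X k)
            rw [dist_comm (X k)] at h4
            linarith
          · rw [← h2, dist_self]
            positivity
      -- a deep point
      obtain ⟨c', hc1, hc2, hc3⟩ : ∃ c', c ≤ c' ∧ c' ≤ t ∧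
          η < Metric.infDist (X c') (frontier Ω) := by
        by_contra hno
        push Not at hno
        have hloop' : ω.1 ((SW.suc ω)^[c] p.1) ≠ ω.2 ((SW.suc ω)^[c] p.1) :=
          P155.L.loop_ne hω (comp_mem_Loops hloop) (iter_comp ω p.1 c)
        have h3 := hnB ((SW.suc ω)^[c] p.1) (t - c) hloop' (by
          intro j hj
          rw [hit]
          exact hno (c + j) (by omega) (by omega)) 0 (Nat.zero_le _) (t - c) le_rfl
        rw [hit, hit, show c + (t - c) = t by omega, add_zero] at h3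
        have h4 : dist (X c) (X t) < ρ / 4 := h3
        exact absurd ht2 (not_le.2 h4)
      have hin : X c' ∈ Ω := hdeep _ (iter_mem hω hvV c') hc3
      obtain ⟨R, hR, i, m', h1, h2, h3, h4⟩ := piece_cross S hω hhq le_rfl hδn hloop
        (c := c') (i' := i') (by omega) (ball_sub_of_deep hin (by
          refine lt_of_le_of_lt ?_ hc3
          linarith)) (by
          have h5 := ht5 c' hc1 hc2
          have h6 := dist_triangle (X c) (X c') (X i')
          rw [dist_comm (X c') (X i')] at h6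
          have h7 : 8 * (h : ℝ) ≤ dist (X i') (X c') := by linarith
          exact h7)
      exact ⟨R, hR, i, by omega, m', h4⟩
    have : Nonempty RR := ⟨⟨hor, 0, 0, 0, 0⟩⟩
    choose! Rf hRf idx hidx mf hmf using hch
    have hcard : A.card ≤ ∑ R ∈ hF.toFinset, (A.filter (fun p => Rf p = R)).card := by
      refine le_of_eq (Finset.card_eq_sum_card_fiberwise ?_)
      intro p hp
      exact hF.mem_toFinset.2 (hRf p hp)
    refine absurd (hcard.trans (Finset.sum_le_sum fun R hR => ?_)) (not_le.2 hAc)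
    refine le_trans ?_ (hnM R hR)
    have hfin : {v | ∃ m, R.d.Crosses (S.δ n) (S.a n) ω R.r0 R.r1 R.s0 R.s1 v m}.Finite := by
      apply (S.T n).V.finite_toSet.subset
      rintro v ⟨m, hm⟩
      exact mem_V_of_loop hω hm.loop
    rw [Set.ncard_eq_toFinset_card _ hfin]
    apply Finset.card_le_card_of_injOn (fun p => (SW.suc ω)^[idx p] p.1)
    · intro p hp
      obtain ⟨h1, h2⟩ := Finset.mem_filter.1 hp
      rw [SetLike.mem_coe, hfin.mem_toFinset]
      refine ⟨mf p, ?_⟩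
      have := hmf p h1
      rw [h2] at this
      exact this
    · intro p hp p' hp' he
      by_contra hne'
      exact hdis p (Finset.mem_filter.1 hp).1 p' (Finset.mem_filter.1 hp').1 hne' _
        (hidx p (Finset.mem_filter.1 hp).1) _ (hidx p' (Finset.mem_filter.1 hp').1) he
  refine (E.Pr_mono hcov).trans ?_
  refine (E.Pr_or_le _ _ _).trans ?_
  have h2 := E.Pr_exists_le_card (S.T n).V hF.toFinset (fun R ω =>
    M R < Set.ncard {v | ∃ m, R.d.Crosses (S.δ n) (S.a n) ω R.r0 R.r1 R.s0 R.s1 v m})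
    (fun R hR => hMn R (hF.mem_toFinset.1 hR))
  have h3 : (hF.toFinset.card : ℝ) * (ε / (2 * (hF.toFinset.card + 1))) ≤ ε / 2 := by
    rw [← mul_div_assoc, div_le_div_iff₀ (by positivity) (by norm_num)]
    nlinarith [hε]
  linarith

end Vale.Agent.P155.NT
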